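import Mathlib

/-! # P227, tool: compactness of families with equi-Lipschitz Hessians (Arzelà–Ascoli in `C²`) -/

open Set Filter Topology Metric

namespace Vale.Agent.P227.M.CPT

variable {E X : Type*} [NormedAddCommGroup E] [NormedSpace ℝ E] [FiniteDimensional ℝ E]
  [NormedAddCommGroup X] [NormedSpace ℝ X] [FiniteDimensional ℝ X]

/-- pointwise limits of equi-Lipschitz sequences are locally uniform -/
theorem tlu_of_pointwise {L : ℝ} {f : ℕ → E → X} (hf : ∀ j x y, ‖f j x - f j y‖ ≤ L * ‖x - y‖)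
    {g : E → X} (hg : ∀ x, Tendsto (fun j => f j x) atTop (𝓝 (g x))) :
    (∀ x y, ‖g x - g y‖ ≤ L * ‖x - y‖) ∧ TendstoLocallyUniformly f g atTop := by
  have hgL : ∀ x y, ‖g x - g y‖ ≤ L * ‖x - y‖ := fun x y =>
    le_of_tendsto ((hg x).sub (hg y)).norm (Eventually.of_forall fun j => hf j x y)
  refine ⟨hgL, Metric.tendstoLocallyUniformly_iff.2 fun ε hε x => ?_⟩
  have hL : (0 : ℝ) < 3 * (|L| + 1) := by positivity
  refine ⟨ball x (ε / (3 * (|L| + 1))), ball_mem_nhds x (div_pos hε hL), ?_⟩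
  filter_upwards [(Metric.tendsto_nhds.1 (hg x)) (ε / 3) (by positivity)] with j hj y hy
  rw [mem_ball, dist_eq_norm] at hy
  have h1 : L * ‖y - x‖ ≤ ε / 3 := by
    have h2 : L * ‖y - x‖ ≤ (|L| + 1) * ‖y - x‖ :=
      mul_le_mul_of_nonneg_right ((le_abs_self L).trans (by linarith)) (norm_nonneg _)
    have h3 : (|L| + 1) * ‖y - x‖ ≤ (|L| + 1) * (ε / (3 * (|L| + 1))) :=
      mul_le_mul_of_nonneg_left hy.le (by positivity)
    have h4 : (|L| + 1) * (ε / (3 * (|L| + 1))) = ε / 3 := by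
      field_simp
    linarith
  rw [dist_eq_norm] at hj
  rw [dist_eq_norm]
  have h5 := hgL y x
  have h6 := hf j y x
  have h7 : g y - f j y = (g y - g x) - (f j x - g x) - (f j y - f j x) := by abel
  rw [h7]
  have h8 := norm_sub_le ((g y - g x) - (f j x - g x)) (f j y - f j x)
  have h9 := norm_sub_le (g y - g x) (f j x - g x)
  linarith

/-- Arzelà–Ascoli for equi-Lipschitz sequences -/
theorem exists_subseq_lip {L C : ℝ} (f : ℕ → E → X) (hf : ∀ j x y, ‖f j x - f j y‖ ≤ L * ‖x - y‖)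
    (h0 : ∀ j, ‖f j 0‖ ≤ C) :
    ∃ φ : ℕ → ℕ, StrictMono φ ∧ ∃ g : E → X, (∀ x y, ‖g x - g y‖ ≤ L * ‖x - y‖) ∧
      TendstoLocallyUniformly (fun j => f (φ j)) g atTop := by
  haveI : ProperSpace X := FiniteDimensional.proper ℝ X
  haveI : ProperSpace E := FiniteDimensional.proper ℝ E
  set D : ℕ → E := TopologicalSpace.denseSeq E with hD
  have hb : ∀ n k, f n (D k) ∈ closedBall (0 : X) (C + L * ‖D k‖) := by
    intro n k
    have h1 := hf n (D k) 0
    rw [sub_zero] at h1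
    rw [mem_closedBall, dist_zero_right]
    have h3 : ‖f n (D k)‖ ≤ ‖f n (D k) - f n 0‖ + ‖f n 0‖ := by
      have := norm_add_le (f n (D k) - f n 0) (f n 0)
      rwa [sub_add_cancel] at this
    have h2 := h0 n
    linarith
  have hK : IsCompact (Set.pi univ fun k => closedBall (0 : X) (C + L * ‖D k‖)) :=
    isCompact_univ_pi fun k => isCompact_closedBall _ _
  obtain ⟨g0, -, φ, hφ, hlim⟩ := hK.tendsto_subseq (x := fun n k => f n (D k))
    (fun n k _ => hb n k)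
  rw [tendsto_pi_nhds] at hlim
  have hc : ∀ x, ∃ l, Tendsto (fun n => f (φ n) x) atTop (𝓝 l) := by
    intro x
    refine cauchySeq_tendsto_of_complete ?_
    rw [Metric.cauchySeq_iff]
    intro ε hε
    have hL1 : (0 : ℝ) < 3 * (|L| + 1) := by positivity
    obtain ⟨k, hk⟩ := (TopologicalSpace.denseRange_denseSeq E).exists_dist_lt x
      (div_pos hε hL1)
    rw [dist_eq_norm] at hk
    have hk' : L * ‖x - D k‖ ≤ ε / 3 := by
      have h2 : L * ‖x - D k‖ ≤ (|L| + 1) * ‖x - D k‖ :=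
        mul_le_mul_of_nonneg_right ((le_abs_self L).trans (by linarith)) (norm_nonneg _)
      have h3 : (|L| + 1) * ‖x - D k‖ ≤ (|L| + 1) * (ε / (3 * (|L| + 1))) :=
        mul_le_mul_of_nonneg_left hk.le (by positivity)
      have h4 : (|L| + 1) * (ε / (3 * (|L| + 1))) = ε / 3 := by
        field_simp
      linarith
    have hcau : CauchySeq (fun n => f (φ n) (D k)) := (hlim k).cauchySeq
    obtain ⟨N, hN⟩ := Metric.cauchySeq_iff.1 hcau (ε / 3) (by positivity)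
    refine ⟨N, fun m hm n hn => ?_⟩
    have h5 := hN m hm n hn
    rw [dist_eq_norm] at h5 ⊢
    have h6 := hf (φ m) x (D k)
    have h7 := hf (φ n) x (D k)
    have h8 : f (φ m) x - f (φ n) x = (f (φ m) x - f (φ m) (D k)) +
      (f (φ m) (D k) - f (φ n) (D k)) - (f (φ n) x - f (φ n) (D k)) := by abel
    rw [h8]
    have h9 := norm_sub_le ((f (φ m) x - f (φ m) (D k)) +
      (f (φ m) (D k) - f (φ n) (D k))) (f (φ n) x - f (φ n) (D k))
    have h10 := norm_add_le (f (φ m) x - f (φ m) (D k)) (f (φ m) (D k) - f (φ n) (D k))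
    linarith
  choose g hg using hc
  obtain ⟨h1, h2⟩ := tlu_of_pointwise (f := fun j => f (φ j)) (fun j x y => hf (φ j) x y) hg
  exact ⟨φ, hφ, g, h1, h2⟩

/-- if the derivatives converge locally uniformly and the values at `0` converge, then the functions
converge locally uniformly to a primitive of the limit -/
theorem exists_primitive {f : ℕ → E → X} {f' : ℕ → E → E →L[ℝ] X} (hf : ∀ n x, HasFDerivAt (f n) (f' n x) x)
    {g' : E → E →L[ℝ] X} (h : TendstoLocallyUniformly f' g' atTop) {l : X}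
    (h0 : Tendsto (fun n => f n 0) atTop (𝓝 l)) :
    ∃ g : E → X, g 0 = l ∧ TendstoLocallyUniformly f g atTop ∧ ∀ x, HasFDerivAt g (g' x) x := by
  haveI : ProperSpace E := FiniteDimensional.proper ℝ E
  have hball : ∀ r : ℝ, TendstoUniformlyOn f' g' atTop (ball (0 : E) r) := fun r =>
    ((tendstoLocallyUniformly_iff_forall_isCompact.1 h) (closedBall 0 r)
      (isCompact_closedBall _ _)).mono ball_subset_closedBall
  have hcau : ∀ r : ℝ, UniformCauchySeqOn f atTop (ball (0 : E) r) := fun r =>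
    uniformCauchySeqOn_ball_of_fderiv (𝕜 := ℝ) (hball r).uniformCauchySeqOn (fun n y _ => hf n y)
      h0.cauchy_map
  have hpt : ∀ x, ∃ y, Tendsto (fun n => f n x) atTop (𝓝 y) := by
    intro x
    refine cauchySeq_tendsto_of_complete ?_
    have hx : x ∈ ball (0 : E) (‖x‖ + 1) := by
      rw [mem_ball, dist_zero_right]
      linarith
    exact (hcau (‖x‖ + 1)).cauchySeq hx
  choose g hg using hpt
  have hu : ∀ r : ℝ, TendstoUniformlyOn f g atTop (ball (0 : E) r) := fun r =>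
    (hcau r).tendstoUniformlyOn_of_tendsto fun x _ => hg x
  have hlu : TendstoLocallyUniformly f g atTop := by
    rw [tendstoLocallyUniformly_iff_forall_isCompact]
    intro K hK
    obtain ⟨r, hr⟩ := hK.isBounded.subset_ball (0 : E)
    exact (hu r).mono hr
  refine ⟨g, tendsto_nhds_unique (hg 0) h0, hlu, fun x => ?_⟩
  exact hasFDerivAt_of_tendstoLocallyUniformlyOn isOpen_univ
    (tendstoLocallyUniformlyOn_univ.2 h) (fun n x _ => hf n x) (fun x _ => hg x) (mem_univ x)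

/-- **Arzelà–Ascoli in `C²`.** -/
theorem exists_subseq_c2 (f : ℕ → E → X) (f' : ℕ → E → E →L[ℝ] X) (f'' : ℕ → E → E →L[ℝ] E →L[ℝ] X)
    (hf : ∀ n x, HasFDerivAt (f n) (f' n x) x) (hf' : ∀ n x, HasFDerivAt (f' n) (f'' n x) x)
    {L C : ℝ} (h0 : ∀ n, ‖f n 0‖ ≤ C) (h1 : ∀ n, ‖f' n 0‖ ≤ C) (h2 : ∀ n, ‖f'' n 0‖ ≤ C)
    (h3 : ∀ n x y, ‖f'' n x - f'' n y‖ ≤ L * ‖x - y‖) :
    ∃ φ : ℕ → ℕ, StrictMono φ ∧ ∃ (g : E → X) (g' : E → E →L[ℝ] X) (g'' : E → E →L[ℝ] E →L[ℝ] X),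
      (∀ x, HasFDerivAt g (g' x) x) ∧ (∀ x, HasFDerivAt g' (g'' x) x) ∧
      (∀ x y, ‖g'' x - g'' y‖ ≤ L * ‖x - y‖) ∧
      TendstoLocallyUniformly (fun j => f (φ j)) g atTop ∧
      TendstoLocallyUniformly (fun j => f' (φ j)) g' atTop ∧
      TendstoLocallyUniformly (fun j => f'' (φ j)) g'' atTop := by
  haveI : ProperSpace X := FiniteDimensional.proper ℝ X
  haveI : ProperSpace (E →L[ℝ] X) := FiniteDimensional.proper ℝ (E →L[ℝ] X)
  obtain ⟨φ1, hφ1, g'', hg'', hlu''⟩ := exists_subseq_lip f'' h3 h2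
  obtain ⟨⟨a, b⟩, -, φ2, hφ2, hlim⟩ := ((isCompact_closedBall (0 : X) C).prod
    (isCompact_closedBall (0 : E →L[ℝ] X) C)).tendsto_subseq
    (x := fun n => (f (φ1 n) 0, f' (φ1 n) 0)) (fun n => by
      refine ⟨?_, ?_⟩
      · simpa [mem_closedBall, dist_zero_right] using h0 (φ1 n)
      · simpa [mem_closedBall, dist_zero_right] using h1 (φ1 n))
  have hsub : ∀ {Y : Type _} [UniformSpace Y] {F : ℕ → E → Y} {G : E → Y},
      TendstoLocallyUniformly F G atTop → TendstoLocallyUniformly (fun j => F (φ2 j)) G atTop := by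
    intro Y _ F G hFG u hu x
    obtain ⟨t, ht, h⟩ := hFG u hu x
    exact ⟨t, ht, hφ2.tendsto_atTop.eventually h⟩
  have hlu2 := hsub hlu''
  have ha : Tendsto (fun n => f (φ1 (φ2 n)) 0) atTop (𝓝 a) :=
    (continuous_fst.tendsto (a, b)).comp hlim
  have hb : Tendsto (fun n => f' (φ1 (φ2 n)) 0) atTop (𝓝 b) :=
    (continuous_snd.tendsto (a, b)).comp hlim
  obtain ⟨g', -, hlu', hg'⟩ := exists_primitive (f := fun n => f' (φ1 (φ2 n)))
    (f' := fun n => f'' (φ1 (φ2 n))) (fun n x => hf' _ x) hlu2 hb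
  obtain ⟨g, -, hlu, hg⟩ := exists_primitive (f := fun n => f (φ1 (φ2 n)))
    (f' := fun n => f' (φ1 (φ2 n))) (fun n x => hf _ x) hlu' ha
  exact ⟨fun n => φ1 (φ2 n), hφ1.comp hφ2, g, g', g'', hg, hg', hg'', hlu, hlu', hlu2⟩

/-- **Arzelà–Ascoli in `C²`**, formulation with `ContDiff` and `fderiv`. -/
theorem exists_subseq_contDiff (f : ℕ → E → X) (hf : ∀ n, ContDiff ℝ 2 (f n))
    {L C : ℝ} (h0 : ∀ n, ‖f n 0‖ ≤ C) (h1 : ∀ n, ‖fderiv ℝ (f n) 0‖ ≤ C)
    (h2 : ∀ n, ‖fderiv ℝ (fderiv ℝ (f n)) 0‖ ≤ C)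
    (h3 : ∀ n x y, ‖fderiv ℝ (fderiv ℝ (f n)) x - fderiv ℝ (fderiv ℝ (f n)) y‖ ≤ L * ‖x - y‖) :
    ∃ φ : ℕ → ℕ, StrictMono φ ∧ ∃ g : E → X, ContDiff ℝ 2 g ∧
      (∀ x y, ‖fderiv ℝ (fderiv ℝ g) x - fderiv ℝ (fderiv ℝ g) y‖ ≤ L * ‖x - y‖) ∧
      TendstoLocallyUniformly (fun j => f (φ j)) g atTop ∧
      TendstoLocallyUniformly (fun j => fderiv ℝ (f (φ j))) (fderiv ℝ g) atTop ∧
      TendstoLocallyUniformly (fun j => fderiv ℝ (fderiv ℝ (f (φ j)))) (fderiv ℝ (fderiv ℝ g)) atTop := by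
  have hd1 : ∀ n, Differentiable ℝ (f n) := fun n => (hf n).differentiable (by norm_num)
  have hc1 : ∀ n, ContDiff ℝ 1 (fderiv ℝ (f n)) := fun n => (hf n).fderiv_right (by norm_num)
  have hd2 : ∀ n, Differentiable ℝ (fderiv ℝ (f n)) := fun n => (hc1 n).differentiable (by norm_num)
  obtain ⟨φ, hφ, g, g', g'', hg, hg', hg'', hl, hl', hl''⟩ := exists_subseq_c2 f
    (fun n => fderiv ℝ (f n)) (fun n => fderiv ℝ (fderiv ℝ (f n)))
    (fun n x => (hd1 n x).hasFDerivAt) (fun n x => (hd2 n x).hasFDerivAt) h0 h1 h2 h3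
  have e1 : fderiv ℝ g = g' := funext fun x => (hg x).fderiv
  have e2 : fderiv ℝ g' = g'' := funext fun x => (hg' x).fderiv
  have hcont : Continuous g'' := by
    have : LipschitzWith (Real.toNNReal L) g'' := by
      refine LipschitzWith.of_dist_le_mul fun x y => ?_
      rw [dist_eq_norm, dist_eq_norm]
      exact (hg'' x y).trans (mul_le_mul_of_nonneg_right (Real.le_coe_toNNReal L) (norm_nonneg _))
    exact this.continuous
  refine ⟨φ, hφ, g, ?_, ?_, hl, ?_, ?_⟩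
  · have h1' : ContDiff ℝ 1 g' :=
      contDiff_one_iff_hasFDerivAt.2 ⟨g'', hcont, hg'⟩
    have h2' : ContDiff ℝ ((1 : ℕ) + 1) g := by
      rw [contDiff_succ_iff_fderiv]
      refine ⟨fun x => (hg x).differentiableAt, fun h => ?_, ?_⟩
      · exact absurd h (by simp)
      · rw [e1]
        exact_mod_cast h1'
    exact_mod_cast h2'
  · rw [e1, e2]
    exact hg''
  · rw [e1]
    exact hl'
  · rw [e1, e2]
    exact hl''

/-- **Arzelà–Ascoli in `C²`**, gradient form in a finite-dimensional inner product space. -/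
theorem exists_subseq_grad {V : Type*} [NormedAddCommGroup V] [InnerProductSpace ℝ V] [CompleteSpace V]
    [FiniteDimensional ℝ V] (f : ℕ → V → ℝ) (g : ℕ → V → V) (T : ℕ → V → V →L[ℝ] V)
    (hf : ∀ n x, HasGradientAt (f n) (g n x) x) (hg : ∀ n x, HasFDerivAt (g n) (T n x) x)
    {L C : ℝ} (h0 : ∀ n, |f n 0| ≤ C) (h1 : ∀ n, ‖g n 0‖ ≤ C) (h2 : ∀ n, ‖T n 0‖ ≤ C)
    (h3 : ∀ n x y, ‖T n x - T n y‖ ≤ L * ‖x - y‖) :
    ∃ φ : ℕ → ℕ, StrictMono φ ∧ ∃ (F : V → ℝ) (G : V → V) (S : V → V →L[ℝ] V),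
      (∀ x, HasGradientAt F (G x) x) ∧ (∀ x, HasFDerivAt G (S x) x) ∧
      (∀ x y, ‖S x - S y‖ ≤ L * ‖x - y‖) ∧
      TendstoLocallyUniformly (fun j => f (φ j)) F atTop ∧
      TendstoLocallyUniformly (fun j => g (φ j)) G atTop ∧
      TendstoLocallyUniformly (fun j => T (φ j)) S atTop := by
  haveI : ProperSpace V := FiniteDimensional.proper ℝ V
  obtain ⟨φ1, hφ1, S, hS, hluS⟩ := exists_subseq_lip T h3 h2
  obtain ⟨⟨a, b⟩, -, φ2, hφ2, hlim⟩ := ((isCompact_closedBall (0 : ℝ) C).prod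
    (isCompact_closedBall (0 : V) C)).tendsto_subseq
    (x := fun n => (f (φ1 n) 0, g (φ1 n) 0)) (fun n => by
      refine ⟨?_, ?_⟩
      · simpa [mem_closedBall, dist_zero_right] using h0 (φ1 n)
      · simpa [mem_closedBall, dist_zero_right] using h1 (φ1 n))
  have hlu2 : TendstoLocallyUniformly (fun j => T (φ1 (φ2 j))) S atTop := by
    intro u hu x
    obtain ⟨t, ht, h⟩ := hluS u hu x
    exact ⟨t, ht, hφ2.tendsto_atTop.eventually h⟩
  have ha : Tendsto (fun n => f (φ1 (φ2 n)) 0) atTop (𝓝 a) :=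
    (continuous_fst.tendsto (a, b)).comp hlim
  have hb : Tendsto (fun n => g (φ1 (φ2 n)) 0) atTop (𝓝 b) :=
    (continuous_snd.tendsto (a, b)).comp hlim
  obtain ⟨G, -, hluG, hG⟩ := exists_primitive (f := fun n => g (φ1 (φ2 n)))
    (f' := fun n => T (φ1 (φ2 n))) (fun n x => hg _ x) hlu2 hb
  have hluG' : TendstoLocallyUniformly (fun n x => (InnerProductSpace.toDual ℝ V) (g (φ1 (φ2 n)) x))
      (fun x => (InnerProductSpace.toDual ℝ V) (G x)) atTop := by
    intro u hu x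
    obtain ⟨t, ht, h⟩ := hluG _ ((InnerProductSpace.toDual ℝ V).toLinearIsometry.isometry.uniformContinuous hu) x
    exact ⟨t, ht, h⟩
  obtain ⟨F, -, hluF, hF⟩ := exists_primitive (f := fun n => f (φ1 (φ2 n)))
    (f' := fun n x => (InnerProductSpace.toDual ℝ V) (g (φ1 (φ2 n)) x)) (fun n x => (hf _ x).hasFDerivAt)
    hluG' ha
  refine ⟨fun n => φ1 (φ2 n), hφ1.comp hφ2, F, G, S, fun x => ?_, hG, hS, hluF, hluG, hlu2⟩
  exact hasGradientAt_iff_hasFDerivAt.2 (hF x)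

end Vale.Agent.P227.M.CPT
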